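import Vale.Agent.P092.SNT.Main
import Vale.Agent.P092.SDT.FlipT
import Vale.Agent.P092.H859.TwN

/-!
P092, TEAM N, all amplifications (helper157): transport of `SNT.LegNF` along a unitary; the second
leg of the model `HH (PT α α α)` from the first one.
-/

set_option linter.all false

open scoped InnerProductSpace ENNReal LinearAlgebra.Projectivization ZeroAtInfty
open Filter Topology ContinuousLinearMap MeasureTheory TopologicalSpace

namespace Vale.Agent.P092.SNT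

open Vale.Agent.P092.RC (cj cj_ap cj_comm cm_cj norm_cj adjoint_cj Cm TRN TRNF Moore GG PG YY PicF
  Tw ct adjV3)
open Vale.Agent.P092.SD (cjH surj_vec cj_surj cj_norm_ap cj_smul_one MsF UC tw_uc)
open Vale.Agent.P092.SN
open Vale.Agent.P092.H790.CTA (ORBG SIZEG)
open Vale.Agent.P092.H859.TwN (tw_sizeg tw_nws cjN tw_efam)
open Vale.Agent.P092.H35 (sp)
open Vale.Agent.P092.H85 (cdat)
open Vale.Agent.P092.H515.St (IsLattice LocK)

section tw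

variable {G Γ K K' κ : Type} [Group G] [Group Γ] [Fintype κ]
  [NormedAddCommGroup K] [InnerProductSpace ℂ K] [CompleteSpace K]
  [NormedAddCommGroup K'] [InnerProductSpace ℂ K'] [CompleteSpace K']

/-- `u` intertwines two pictures with families of vectors. -/
structure TwF (u : K ≃ₗᵢ[ℂ] K') (π : G →* (K →L[ℂ] K)) (lam : Γ →* (K →L[ℂ] K))
    (W : Set (K →L[ℂ] K)) (Ω : κ → K) (π' : G →* (K' →L[ℂ] K')) (lam' : Γ →* (K' →L[ℂ] K'))
    (W' : Set (K' →L[ℂ] K')) (Ω' : κ → K') : Prop where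
  pi : ∀ g, π' g = cj u (π g)
  lam : ∀ γ, lam' γ = cj u (lam γ)
  W : W' = cj u '' W
  Om : ∀ i, Ω' i = u (Ω i)

variable {u : K ≃ₗᵢ[ℂ] K'} {π : G →* (K →L[ℂ] K)} {lam : Γ →* (K →L[ℂ] K)}
    {W : Set (K →L[ℂ] K)} {Ω : κ → K} {π' : G →* (K' →L[ℂ] K')} {lam' : Γ →* (K' →L[ℂ] K')}
    {W' : Set (K' →L[ℂ] K')} {Ω' : κ → K'}

theorem TwF.one [TopologicalSpace G] (t : TwF u π lam W Ω π' lam' W' Ω') (i : κ) :
    Tw u π lam W (Ω i) π' lam' W' (Ω' i) :=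
  ⟨t.pi, t.lam, t.W, t.Om i⟩

theorem TwF.trn [TopologicalSpace G] (t : TwF u π lam W Ω π' lam' W' Ω') (T : K →L[ℂ] K) :
    TRNF lam' Ω' (cj u T) = TRNF lam Ω T :=
  Finset.sum_congr rfl fun i _ => (t.one i).trn T

theorem tw_picF [TopologicalSpace G] (t : TwF u π lam W Ω π' lam' W' Ω')
    (h : PicF π lam W Ω) : PicF π' lam' W' Ω' where
  adjP g := by rw [t.pi, adjoint_cj, h.adjP, t.pi]
  contP ξ := by
    obtain ⟨η, rfl⟩ := surj_vec u ξ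
    have h1 : (fun g => π' g (u η)) = fun g => u (π g η) := by
      funext g; rw [t.pi, cj_ap]
    rw [h1]
    exact u.continuous.comp (h.contP η)
  adjL γ := by rw [t.lam, adjoint_cj, h.adjL, t.lam]
  comm g γ := by rw [t.pi, t.lam, ← map_mul, ← map_mul, h.comm]
  Wadj w hw := by
    rw [t.W] at hw ⊢
    obtain ⟨v, hv, rfl⟩ := hw
    exact ⟨adjoint v, h.Wadj v hv, (adjoint_cj u v).symm⟩
  WP w hw g := by
    rw [t.W] at hw ⊢
    obtain ⟨v, hv, rfl⟩ := hw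
    exact ⟨_, h.WP v hv g, by rw [t.pi, t.pi, map_mul, map_mul]⟩
  WL w hw γ := by
    rw [t.W] at hw
    obtain ⟨v, hv, rfl⟩ := hw
    rw [t.lam, ← map_mul, ← map_mul, h.WL v hv]
  nΩ := by
    rw [← h.nΩ]
    exact Finset.sum_congr rfl fun i _ => by rw [t.Om, u.norm_map]
  erg S hS T hT h1 h2 := by
    obtain ⟨T, rfl⟩ := cj_surj u T
    rw [t.W] at hT
    obtain ⟨z, hz⟩ := h.erg S hS T ((cm_cj u).1 hT)
      (fun γ => by
        have h3 := h1 γ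
        rw [t.lam] at h3
        exact (cj_comm u).1 h3)
      (fun g hg => by
        have h3 := h2 g hg
        rw [t.pi] at h3
        exact (cj_comm u).1 h3)
    exact ⟨z, by rw [hz, cj_smul_one]⟩
  tr_adj T hT := by
    obtain ⟨T, rfl⟩ := cj_surj u T
    rw [t.W] at hT
    rw [adjoint_cj, t.trn, t.trn, h.tr_adj T ((cm_cj u).1 hT)]
  tr_conj T hT g := by
    obtain ⟨T, rfl⟩ := cj_surj u T
    rw [t.W] at hT
    rw [t.pi, t.pi, ← map_mul, ← map_mul, t.trn, t.trn, h.tr_conj T ((cm_cj u).1 hT)]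
  tr_zero T hT h0 := by
    obtain ⟨T, rfl⟩ := cj_surj u T
    rw [t.W] at hT
    rw [t.trn] at h0
    rw [h.tr_zero T ((cm_cj u).1 hT) h0, map_zero]
  hs_erg S hS T hT hfin h2 := by
    obtain ⟨T, rfl⟩ := cj_surj u T
    rw [t.W] at hT
    rw [t.trn] at hfin
    rw [h.hs_erg S hS T ((cm_cj u).1 hT) hfin (fun g hg => by
        have h3 := h2 g hg
        rw [t.pi] at h3
        exact (cj_comm u).1 h3), map_zero]
  inv := by
    obtain ⟨n, Ω₀, h1, h2⟩ := h.inv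
    refine ⟨n, fun i => u (Ω₀ i), ?_, fun T hT hc γ => ?_⟩
    · rw [← h1]
      exact Finset.sum_congr rfl fun i _ => by rw [u.norm_map]
    · obtain ⟨T, rfl⟩ := cj_surj u T
      rw [t.W] at hT
      have h3 := h2 T ((cm_cj u).1 hT) (fun g => by
          have h3 := hc g
          rw [t.pi] at h3
          exact (cj_comm u).1 h3) γ
      rw [t.lam, t.lam, ← map_mul, ← map_mul]
      simp_rw [cj_ap, u.inner_map_map]
      exact h3

theorem tw_msF {m : Set Γ → (K →L[ℂ] K)} (t : TwF u π lam W Ω π' lam' W' Ω')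
    (h : MsF lam W Ω m) : MsF lam' W' Ω' fun S => cj u (m S) where
  adj S := by rw [adjoint_cj, h.adj]
  inf S T := by rw [h.inf, map_mul]
  compl S := by rw [h.compl, map_sub, map_one]
  cm S := by
    rw [t.W]
    exact (cm_cj u).2 (h.cm S)
  cov γ S := by rw [t.lam, t.lam, ← map_mul, ← map_mul, h.cov]
  om i := by rw [t.Om, cj_ap, h.om]
  fin ξ ε hε := by
    obtain ⟨η, rfl⟩ := surj_vec u ξ
    obtain ⟨F, hF⟩ := h.fin η ε hε
    exact ⟨F, by rw [cj_norm_ap]; exact hF⟩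
  cyc ξ hξ := by
    obtain ⟨η, rfl⟩ := surj_vec u ξ
    rw [cj_ap] at hξ
    have h1 := h.cyc η (u.injective hξ)
    rw [mem_closure_iff_seq_limit] at h1 ⊢
    obtain ⟨x, hx, hlim⟩ := h1
    refine ⟨fun n => u (x n), fun n => ?_, (u.continuous.tendsto _).comp hlim⟩
    have h2 := hx n
    have h3 : Submodule.map (u.toLinearEquiv : K →ₗ[ℂ] K')
        (Submodule.span ℂ {η | ∃ i, ∃ w ∈ StarAlgebra.adjoin ℂ W, η = w (Ω i)}) ≤
        Submodule.span ℂ {η | ∃ i, ∃ w ∈ StarAlgebra.adjoin ℂ W', η = w (Ω' i)} := by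
      rw [Submodule.map_span]
      refine Submodule.span_mono ?_
      rintro _ ⟨_, ⟨i, w, hw, rfl⟩, rfl⟩
      refine ⟨i, cj u w, ?_, ?_⟩
      · have h4 : StarAlgebra.adjoin ℂ W' = (StarAlgebra.adjoin ℂ W).map (cjH u) := by
          rw [StarAlgHom.map_adjoin, t.W]
          rfl
        rw [h4]
        exact ⟨w, hw, rfl⟩
      · rw [t.Om, cj_ap]
        rfl
    exact h3 ⟨x n, h2, rfl⟩

theorem tw_orbgF [TopologicalSpace G] {V : Type} [NormedAddCommGroup V] [MeasurableSpace V]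
    {μ : Measure V} {b : G} {n : V → G} {ρ : ℝ} (t : TwF u π lam W Ω π' lam' W' Ω')
    (h : ORBGF μ b n ρ π lam W Ω) : ORBGF μ b n ρ π' lam' W' Ω' := by
  intro i g δ hδ
  obtain ⟨C, hC⟩ := h i g δ hδ
  refine ⟨C, fun N T hT hT1 => ?_⟩
  obtain ⟨T, rfl⟩ := cj_surj u T
  rw [t.W] at hT
  rw [norm_cj] at hT1
  have h1 := hC N T ((cm_cj u).1 hT) hT1
  rw [t.trn]
  refine le_trans (le_of_eq ?_) h1
  refine lintegral_congr fun s => ?_
  rw [t.pi, t.Om, cj_ap, cj_ap]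
  congr 1
  exact u.toLinearIsometry.enorm_map _

end tw

section leg

variable {k : Type} [NontriviallyNormedField k] [ProperSpace k] {N : ℕ} {K K' κ : Type}
  [Fintype κ] [NormedAddCommGroup K] [InnerProductSpace ℂ K] [CompleteSpace K]
  [NormedAddCommGroup K'] [InnerProductSpace ℂ K'] [CompleteSpace K'] {u : K ≃ₗᵢ[ℂ] K'}
  {E Γ : Type} [Group E] [TopologicalSpace E] [Group Γ]
  {π : E →* (K →L[ℂ] K)} {lam : Γ →* (K →L[ℂ] K)}
  {W : Set (K →L[ℂ] K)} {Ω : κ → K} {π' : E →* (K' →L[ℂ] K')} {lam' : Γ →* (K' →L[ℂ] K')}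
  {W' : Set (K' →L[ℂ] K')} {Ω' : κ → K'} {w : kˣ} {q : Γ → GG k N} {Z : ℝ → Set Γ}
  {m : Set Γ → (K →L[ℂ] K)} {ι : GG k N →* E} {a a' : E →* PG k (N + 1)}

/-- The calculi do not see the vector; transport with the zero vector. -/
theorem tw_efamF {Ec : YY k N → (CY k N →⋆ₐ[ℂ] (K →L[ℂ] K))} {ι : GG k N →* E}
    {a : E →* PG k (N + 1)} {q : Γ → GG k N}
    (t : TwF u π lam W Ω π' lam' W' Ω') (h : EFam w ι a π lam W m q Z Ec) :
    EFam w ι a π' lam' W' (fun S => cj u (m S)) q Z fun x => cjN u (Ec x) :=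
  tw_efam (Ω := 0) (Ω' := 0) ⟨t.pi, t.lam, t.W, (map_zero u).symm⟩ h

/-- **Transport of a leg with a family of vectors.** -/
theorem tw_legNF [MeasurableSpace k] {μ : Measure k}
    {Ec F : YY k N → (CY k N →⋆ₐ[ℂ] (K →L[ℂ] K))} (t : TwF u π lam W Ω π' lam' W' Ω')
    (h : LegNF μ w ι a a' π lam W Ω m q Z Ec F) :
    LegNF μ w ι a a' π' lam' W' Ω' (fun S => cj u (m S)) q Z (fun x => cjN u (Ec x))
      fun x => cjN u (F x) where
  adm := h.adm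
  hw := h.hw
  pic := tw_picF t h.pic
  ms := tw_msF t h.ms
  uc i := tw_uc (t.one i) (h.uc i)
  ph := h.ph
  zm := h.zm
  ud := h.ud
  orb hj := by
    obtain ⟨ρ, h1, h2, h3⟩ := h.orb hj
    exact ⟨ρ, h1, h2, tw_orbgF t h3⟩
  orb' hj := by
    obtain ⟨ρ, h1, h2, h3⟩ := h.orb' hj
    exact ⟨ρ, h1, h2, tw_orbgF t h3⟩
  size i := tw_sizeg (t.one i) (h.size i)
  size' i := tw_sizeg (t.one i) (h.size' i)
  nws i := tw_nws (t.one i) (h.nws i)
  nws' i := tw_nws (t.one i) (h.nws' i)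
  e := tw_efamF t h.e
  f := tw_efamF t h.f
  nis := h.nis

end leg

/-! ### The flip on the induced space, any fibre -/

section flip

open Vale.Agent.P092.SDT (flS cj_pi cj_lam cj_ind cj_image cj_range)

variable {E : Type} [Group E] [TopologicalSpace E] [IsTopologicalGroup E] [LocallyCompactSpace E]
  [SecondCountableTopology E] [T2Space E] [MeasurableSpace E] [BorelSpace E]
  {Γ : Subgroup E} [DiscreteTopology Γ] [Countable Γ] [MeasurableSpace (E ⧸ Γ)]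
  [BorelSpace (E ⧸ Γ)] {ν : Measure (E ⧸ Γ)} [IsProbabilityMeasure ν]
  (hν : ∀ g : E, ν.map (fun x => g • x) = ν)
  {ℋ : Type} [NormedAddCommGroup ℋ] [InnerProductSpace ℂ ℋ] [CompleteSpace ℋ]
  {V R₁ R₂ : Γ →* (ℋ →L[ℂ] ℋ)} {s : ℋ →L[ℂ] ℋ}

/-- the flip intertwines the two legs -/
theorem twF_flip (hs : s * s = 1) (ha : adjoint s = s) (sV : ∀ v, s * V v = V v * s)
    (s1 : ∀ g, s * R₁ g = R₂ g * s) (s2 : ∀ g, s * R₂ g = R₁ g * s)
    (hV : ∀ v, adjoint (V v) = V v⁻¹) {κ : Type} [Fintype κ] (Ω : κ → Lp ℋ 2 (cdat ν hν).μ) :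
    TwF (flS (cdat ν hν) s hs ha) (H34.Ind.pi (cdat ν hν) (V := V) hV)
      (H34.Ind.lam (cdat ν hν) R₁)
      (H34.Ind.Xset (cdat ν hν) ℋ ∪ Set.range (H34.Ind.lam (cdat ν hν) R₂)) Ω
      (H34.Ind.pi (cdat ν hν) (V := V) hV) (H34.Ind.lam (cdat ν hν) R₂)
      (H34.Ind.Xset (cdat ν hν) ℋ ∪ Set.range (H34.Ind.lam (cdat ν hν) R₁))
      fun i => flS (cdat ν hν) s hs ha (Ω i) where
  pi g := (cj_pi (cdat ν hν) hs ha hV sV g).symm
  lam g := (cj_lam (cdat ν hν) hs ha s1 g).symm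
  W := by
    rw [Set.image_union, cj_image (X := H34.Ind.Xset (cdat ν hν) ℋ) (cdat ν hν) hs ha
      fun T hT => hT, cj_range (cdat ν hν) hs ha s2]
  Om i := rfl

/-- the second leg from the first one, any fibre with a flip -/
theorem legNF_flip {k : Type} [NontriviallyNormedField k] [ProperSpace k] [MeasurableSpace k]
    {μ : Measure k} {N : ℕ} {w : kˣ} {ι : GG k N →* E} {a a' : E →* PG k (N + 1)}
    (hs : s * s = 1) (ha : adjoint s = s) (sV : ∀ v, s * V v = V v * s)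
    (s1 : ∀ g, s * R₁ g = R₂ g * s) (s2 : ∀ g, s * R₂ g = R₁ g * s)
    (hV : ∀ v, adjoint (V v) = V v⁻¹) {κ : Type} [Fintype κ] {Ω : κ → Lp ℋ 2 (cdat ν hν).μ}
    {m : Set Γ → (Lp ℋ 2 (cdat ν hν).μ →L[ℂ] Lp ℋ 2 (cdat ν hν).μ)} {q : Γ → GG k N}
    {Z : ℝ → Set Γ}
    {Ec F : YY k N → (CY k N →⋆ₐ[ℂ] (Lp ℋ 2 (cdat ν hν).μ →L[ℂ] Lp ℋ 2 (cdat ν hν).μ))}
    (h : LegNF μ w ι a a' (H34.Ind.pi (cdat ν hν) (V := V) hV) (H34.Ind.lam (cdat ν hν) R₁)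
      (H34.Ind.Xset (cdat ν hν) ℋ ∪ Set.range (H34.Ind.lam (cdat ν hν) R₂)) Ω m q Z Ec F) :
    LegNF μ w ι a a' (H34.Ind.pi (cdat ν hν) (V := V) hV) (H34.Ind.lam (cdat ν hν) R₂)
      (H34.Ind.Xset (cdat ν hν) ℋ ∪ Set.range (H34.Ind.lam (cdat ν hν) R₁))
      (fun i => flS (cdat ν hν) s hs ha (Ω i)) (fun S => cj (flS (cdat ν hν) s hs ha) (m S)) q Z
      (fun x => cjN (flS (cdat ν hν) s hs ha) (Ec x))
      fun x => cjN (flS (cdat ν hν) s hs ha) (F x) :=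
  tw_legNF (twF_flip hν hs ha sV s1 s2 hV Ω) h

end flip

/-! ### One leg is enough -/

section gen

variable {k : Type} [NontriviallyNormedField k] [ProperSpace k] [MeasurableSpace k]
  {μ : Measure k} {N : ℕ} {E Γ K : Type} [Group E] [TopologicalSpace E] [Group Γ]
  [NormedAddCommGroup K] [InnerProductSpace ℂ K] [CompleteSpace K]
  {ι : GG k N →* E} {a a' : E →* PG k (N + 1)} {π : E →* (K →L[ℂ] K)}
  {lam₁ lam₂ : Γ →* (K →L[ℂ] K)} {W₁ W₂ : Set (K →L[ℂ] K)} {Z : ℝ → Set Γ}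

theorem ex_of_half
    (hf : ∀ (w : kˣ) (κ : Type) [Fintype κ] (Ω : κ → K) (m : Set Γ → (K →L[ℂ] K))
      (q : Γ → GG k N) (Ec F : YY k N → (CY k N →⋆ₐ[ℂ] (K →L[ℂ] K))),
      LegNF μ w ι a a' π lam₁ W₁ Ω m q Z Ec F → ∃ (Ω' : κ → K) (m' : Set Γ → (K →L[ℂ] K))
        (Ec' F' : YY k N → (CY k N →⋆ₐ[ℂ] (K →L[ℂ] K))),
        LegNF μ w ι a a' π lam₂ W₂ Ω' m' q Z Ec' F')
    (h : ∃ (w : kˣ) (κ : Type) (_ : Fintype κ) (Ω : κ → K) (m : Set Γ → (K →L[ℂ] K))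
      (q : Γ → GG k N) (Ec F : YY k N → (CY k N →⋆ₐ[ℂ] (K →L[ℂ] K))),
      LegNF μ w ι a a' π lam₁ W₁ Ω m q Z Ec F ∧
      (∀ γ, sp k (N + 1) (q γ) = 1 → γ = 1) ∧ (∀ C : ℝ, {γ : Γ | nm (q γ) ≤ C}.Finite)) :
    ∃ (w : kˣ) (κ₁ κ₂ : Type) (_ : Fintype κ₁) (_ : Fintype κ₂) (Ω₁ : κ₁ → K) (Ω₂ : κ₂ → K)
      (m₁ m₂ : Set Γ → (K →L[ℂ] K)) (q₁ q₂ : Γ → GG k N)
      (E₁ F₁ E₂ F₂ : YY k N → (CY k N →⋆ₐ[ℂ] (K →L[ℂ] K))),
      LegNF μ w ι a a' π lam₁ W₁ Ω₁ m₁ q₁ Z E₁ F₁ ∧ LegNF μ w ι a a' π lam₂ W₂ Ω₂ m₂ q₂ Z E₂ F₂ ∧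
      (∀ γ, sp k (N + 1) (q₁ γ) = 1 → γ = 1) ∧ (∀ γ, sp k (N + 1) (q₂ γ) = 1 → γ = 1) ∧
      (∀ C : ℝ, {γ : Γ | nm (q₁ γ) ≤ C}.Finite) ∧ (∀ C : ℝ, {γ : Γ | nm (q₂ γ) ≤ C}.Finite) := by
  obtain ⟨w, κ, iκ, Ω, m, q, Ec, F, l1, h1, h2⟩ := h
  obtain ⟨Ω', m', Ec', F', l2⟩ := hf w κ Ω m q Ec F l1
  exact ⟨w, κ, κ, iκ, iκ, Ω, Ω', m, m', q, q, Ec, F, Ec', F', l1, l2, h1, h1, h2, h2⟩

end gen

section half

open Vale.Agent.P092.SR Vale.Agent.P092.H160 Vale.Agent.P092.H103 Vale.Agent.P092.H962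
open Vale.Agent.P092.SDT (sT sT_sq sT_adj sT_V sT_A sT_B)

/-- **[N-HALF-T]** the first leg of the concrete picture over a source group `E` with one factor,
all amplifications. The family `Ω` is free. -/
def ExHalfT (k : Type) [NontriviallyNormedField k] [ProperSpace k] [MeasurableSpace k]
    (μ : Measure k) {N : ℕ} {E : Type} [Group E] [TopologicalSpace E]
    [IsTopologicalGroup E] [LocallyCompactSpace E] [SecondCountableTopology E] [T2Space E]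
    (ι : GG k N →* E) (a a' : E →* PG k (N + 1)) : Prop :=
  ∀ [MeasurableSpace E] [BorelSpace E] {Γ : Subgroup E} [DiscreteTopology Γ] [Countable Γ]
    [MeasurableSpace (E ⧸ Γ)] [BorelSpace (E ⧸ Γ)] {ν : Measure (E ⧸ Γ)}
    [IsProbabilityMeasure ν] (hν : ∀ g : E, ν.map (fun x => g • x) = ν)
    (_ : IsLattice Γ) (_ : ∀ g : Γ, g ≠ 1 → Set.Infinite {y : Γ | ∃ h, y = h * g * h⁻¹})
    {Λ : Type} [Group Λ] [Countable Λ]
    (_ : ∀ g : Λ, g ≠ 1 → Set.Infinite {y : Λ | ∃ h, y = h * g * h⁻¹})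
    {I : Type} [Fintype I] {α : Γ → (Ell2 (I × Λ) →L[ℂ] Ell2 (I × Λ))} (hα : AF α),
    ∃ (w : kˣ) (κ : Type) (_ : Fintype κ) (Ω : κ → Lp (HH (PT α α α)) 2 (cdat ν hν).μ)
      (m : Set Γ → (Lp (HH (PT α α α)) 2 (cdat ν hν).μ →L[ℂ]
        Lp (HH (PT α α α)) 2 (cdat ν hν).μ)) (q : Γ → GG k N)
      (Ec F : YY k N → (CY k N →⋆ₐ[ℂ] (Lp (HH (PT α α α)) 2 (cdat ν hν).μ →L[ℂ]
        Lp (HH (PT α α α)) 2 (cdat ν hν).μ))),
      LegNF μ w ι a a' (H34.Ind.pi (cdat ν hν) (V := V3 hα hα hα) (adjV3 hα))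
        (H34.Ind.lam (cdat ν hν) (A3R hα hα hα))
        (H34.Ind.Xset (cdat ν hν) (HH (PT α α α)) ∪
          Set.range (H34.Ind.lam (cdat ν hν) (B3R hα hα hα))) Ω m q (fun _ => Set.univ) Ec F ∧
      (∀ γ, sp k (N + 1) (q γ) = 1 → γ = 1) ∧ (∀ C : ℝ, {γ : Γ | nm (q γ) ≤ C}.Finite)

/-- **The second leg is the flip of the first one.** -/
theorem exT_of_half {k : Type} [NontriviallyNormedField k] [ProperSpace k] [MeasurableSpace k]
    {μ : Measure k} {N : ℕ} {E : Type} [Group E] [TopologicalSpace E]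
    [IsTopologicalGroup E] [LocallyCompactSpace E] [SecondCountableTopology E] [T2Space E]
    {ι : GG k N →* E} {a a' : E →* PG k (N + 1)} (h : ExHalfT k μ ι a a') :
    ExStmtT k μ ι a a' := by
  intro _ _ Γ _ _ _ _ ν _ hν hΓ hicc Λ _ _ hΛ I _ α hα
  refine ex_of_half ?_ (h (Γ := Γ) hν hΓ hicc hΛ hα)
  intro w κ iκ Ω m q Ec F l1
  exact ⟨_, _, _, _, legNF_flip hν (sT_sq hα) (sT_adj hα) (sT_V hα) (sT_A hα) (sT_B hα)
    (adjV3 hα) l1⟩

/-- [N-HALF-T] for `E = SL_n(k)`, all `n ≥ 3` -/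
def ExSlHalfT (k : Type) [NontriviallyNormedField k] [ProperSpace k] [MeasurableSpace k]
    (μ : Measure k) : Prop :=
  ∀ {N : ℕ}, 2 ≤ N → ∀ [LocallyCompactSpace (GG k N)] [SecondCountableTopology (GG k N)],
    ExHalfT k μ (MonoidHom.id (GG k N)) (sp k (N + 1)) ((sp k (N + 1)).comp ct)

theorem exSlT_of_half {k : Type} [NontriviallyNormedField k] [ProperSpace k] [MeasurableSpace k]
    {μ : Measure k} (h : ExSlHalfT k μ) : ExSlT k μ :=
  fun hN => exT_of_half (h hN)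

end half

end Vale.Agent.P092.SNT
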