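import Vale.Agent.P092.H962.C.PicT
import Vale.Agent.P092.H264.AmpC
import Vale.Agent.P092.SD.Defs

/-!
P092, all amplifications (helper157): back from `K ⊗ ℂ^Q` to `K` for classical legs, any target
group; the invariance of the sum of vector states of a Parseval family on `L²(E/Γ; ℋ)`, any fibre.
-/

set_option linter.all false

open scoped InnerProductSpace ENNReal ZeroAtInfty
open Filter Topology ContinuousLinearMap MeasureTheory TopologicalSpace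

namespace Vale.Agent.P092.SNT

open Vale.Agent.P092.H333.Amp
open Vale.Agent.P092.SD (MM)
open Vale.Agent.P092.RC (Cm TRN TRNF PicF ampH ampH_ap ampW ampO ampO_ap ampO_ne sum_ampO cm_ampW
  cm_amp amp_comm_iff inner_ampO norm_ampO)

/-! ### Classical legs -/

section cl

variable {E Γ K Q G : Type} [Group E] [Group Γ] [NormedAddCommGroup K] [InnerProductSpace ℂ K]
  [CompleteSpace K] [Group Q] [Fintype Q] [Group G] [TopologicalSpace G]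
  {π : E →* (K →L[ℂ] K)} {lam : Γ →* (K →L[ℂ] K)} {W : Set (K →L[ℂ] K)} {q : Γ →* G}

/-- **A classical leg on `K ⊗ ℂ^Q` comes from one on `K`.** -/
theorem cleg_unamp {P : C₀(G, ℂ) →⋆ₙₐ[ℂ] (KT Q K →L[ℂ] KT Q K)}
    (h : H264.Cl.CLeg (ampH Q π) (ampH Q lam) (ampW Q W) q P) :
    ∃ P' : C₀(G, ℂ) →⋆ₙₐ[ℂ] (K →L[ℂ] K), (∀ ψ, P ψ = H333.Amp.amp (Q := Q) (P' ψ)) ∧
      H264.Cl.CLeg π lam W q P' := by
  have e1 : ∀ ψ, ∃ T, P ψ = H333.Amp.amp (Q := Q) T ∧ Cm W T := fun ψ => cm_ampW.1 (h.cm ψ)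
  choose f hf hc using e1
  refine ⟨⟨⟨⟨⟨f, fun c ψ => ?_⟩, ?_, fun ψ φ => ?_⟩, fun ψ φ => ?_⟩, fun ψ => ?_⟩, hf, ?_⟩
  · change f (c • ψ) = c • f ψ
    have h1 : P (c • ψ) = c • P ψ := map_smul P c ψ
    rw [hf, hf, ← amp_smul] at h1
    exact amp_inj h1
  · change f 0 = 0
    have h1 : P 0 = 0 := map_zero P
    rw [hf, ← amp_zero] at h1
    exact amp_inj h1
  · change f (ψ + φ) = f ψ + f φ
    have h1 : P (ψ + φ) = P ψ + P φ := map_add P ψ φ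
    rw [hf, hf, hf, ← amp_add] at h1
    exact amp_inj h1
  · change f (ψ * φ) = f ψ * f φ
    have h1 : P (ψ * φ) = P ψ * P φ := map_mul P ψ φ
    rw [hf, hf, hf, ← amp_mul] at h1
    exact amp_inj h1
  · change f (star ψ) = star (f ψ)
    have h1 : P (star ψ) = star (P ψ) := map_star P ψ
    rw [hf, hf, star_eq_adjoint, adjoint_amp] at h1
    exact amp_inj h1
  · refine ⟨fun ξ hξ => ?_, fun ψ => hc ψ, fun γ ψ ψ' hψ => ?_, fun g ψ => ?_, h.inj, h.disc⟩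
    · have h1 : (em (1 : Q) ξ : KT Q K) = 0 := by
        refine h.nd _ fun ψ => ?_
        rw [hf, amp_em]
        have h2 : f ψ ξ = 0 := hξ ψ
        rw [h2, map_zero]
      have h3 := norm_em (1 : Q) ξ
      rw [h1, norm_zero] at h3
      exact norm_eq_zero.1 h3.symm
    · have h1 := h.cov γ ψ ψ' hψ
      rw [hf, hf, ampH_ap, ampH_ap, ← amp_mul, ← amp_mul] at h1
      exact amp_inj h1
    · obtain ⟨ψ', h1⟩ := h.pcov g ψ
      rw [hf, hf, ampH_ap, ampH_ap, ← amp_mul, ← amp_mul] at h1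
      exact ⟨ψ', amp_inj h1⟩

/-- (TV) for a family of vectors, any group -/
def TVEF {ι : Type} [Fintype ι] (π : E →* (K →L[ℂ] K)) (lam : Γ →* (K →L[ℂ] K))
    (W : Set (K →L[ℂ] K)) (Ω : ι → K) : Prop :=
  ∀ Y ∈ MM lam W, ∀ h : E, ∑ i, ⟪π h (Ω i), Y (π h (Ω i))⟫_ℂ = ∑ i, ⟪Ω i, Y (Ω i)⟫_ℂ

theorem tvE_amp {ι : Type} [Fintype ι] {Ω : ι → K} (h : TVEF π lam W Ω) (j : ι ↪ Q) :
    ∀ Y ∈ MM (ampH Q lam) (ampW Q W), ∀ v : E, ⟪ampH Q π v (ampO j Ω), Y (ampH Q π v (ampO j Ω))⟫_ℂ =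
      ⟪ampO j Ω, Y (ampO j Ω)⟫_ℂ := by
  rintro Y ⟨hY, hl⟩ v
  obtain ⟨Y', rfl, hY'⟩ := cm_ampW.1 hY
  have h1 : Y' ∈ MM lam W := ⟨hY', fun γ => amp_comm_iff.1 (hl γ)⟩
  have h2 := h Y' h1 v
  rw [inner_ampO, ← h2, inner_KT]
  exact sum_ampO j Ω (fun x => ⟪π v x, Y' (π v x)⟫_ℂ) (by simp)

end cl

/-! ### The invariance of the sum of vector states -/

section tv

open Vale.Agent.P092.H790 Vale.Agent.P092.H85 Vale.Agent.P092.H34 Vale.Agent.P092.H34.AmpE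
open Vale.Agent.P092.H34.Ind (AA Xset)
open Vale.Agent.P092.SR (Tri)

variable {E : Type} [Group E] [TopologicalSpace E] [IsTopologicalGroup E] [LocallyCompactSpace E]
  [SecondCountableTopology E] [T2Space E] [MeasurableSpace E] [BorelSpace E]
  {Γ : Subgroup E} [DiscreteTopology Γ] [Countable Γ] [MeasurableSpace (E ⧸ Γ)]
  [BorelSpace (E ⧸ Γ)] {ν : Measure (E ⧸ Γ)} [IsProbabilityMeasure ν]
  (hν : ∀ g : E, ν.map (fun x => g • x) = ν)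
  {ℋ : Type} [NormedAddCommGroup ℋ] [InnerProductSpace ℂ ℋ] [CompleteSpace ℋ]
  {V R₁ R₂ : Γ →* (ℋ →L[ℂ] ℋ)} (hV : ∀ v, adjoint (V v) = V v⁻¹)
  {B : Type} [Countable B] (b : HilbertBasis B ℂ ℋ) {ι : Type} [Fintype ι] {ξ : ι → ℋ}

include b in
/-- **(TV)** for the Parseval family of both targets -/
theorem tv_tri (h : Tri V R₁ R₂ ξ) :
    TVEF (Ind.pi (cdat ν hν) hV) (Ind.lam (cdat ν hν) R₁)
      (Xset (cdat ν hν) ℋ ∪ Set.range (Ind.lam (cdat ν hν) R₂)) (nrm hν ξ) := by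
  rintro Y ⟨hY, hY1⟩ g
  obtain ⟨s, hs⟩ : ∃ s : ℂ, s = (((Real.sqrt (∑ j, ‖ξ j‖ ^ 2))⁻¹ : ℝ) : ℂ) := ⟨_, rfl⟩
  obtain ⟨c, hc⟩ : ∃ c : ι → Lp ℋ 2 (cdat ν hν).μ, ∀ i, c i = Lp.const 2 (cdat ν hν).μ (ξ i) :=
    ⟨_, fun i => rfl⟩
  have e1 : ∀ i, nrm hν ξ i = s • c i := by
    intro i
    rw [hc, hs]
    exact map_smul (Lp.constL 2 (cdat ν hν).μ ℂ) _ (ξ i)
  have hA := aa_two hν h.comm₁₂ hY hY1
  -- the operators `1 + z Y`
  have hB : ∀ z : ℂ, AA (cdat ν hν) (Set.range (two R₁ R₂ h.comm₁₂))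
      ((1 : Lp ℋ 2 (cdat ν hν).μ →L[ℂ] Lp ℋ 2 (cdat ν hν).μ) + z • Y) := by
    intro z w hw
    have h1 := hA w hw
    rw [add_mul, mul_add, one_mul, mul_one, smul_mul_assoc, mul_smul_comm, h1]
  have key : ∀ z : ℂ, ∑ i, ‖((1 : Lp ℋ 2 (cdat ν hν).μ →L[ℂ] Lp ℋ 2 (cdat ν hν).μ) + z • Y)
      (Ind.pi (cdat ν hν) hV g (c i))‖ ^ 2 =
      ∑ i, ‖((1 : Lp ℋ 2 (cdat ν hν).μ →L[ℂ] Lp ℋ 2 (cdat ν hν).μ) + z • Y) (c i)‖ ^ 2 := by
    intro z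
    have h1 := trnf_conj (d := cdat ν hν) hV b (two_adj h.comm₁₂ h.adj₁ h.adj₂) (frq_two h)
      (fun v p => two_comm h.comm₁₂ (h.comm₁ v) (h.comm₂ v) p) (hB z) g⁻¹
    have h2 : ∀ T : Lp ℋ 2 (cdat ν hν).μ →L[ℂ] Lp ℋ 2 (cdat ν hν).μ,
        TRNF (1 : Unit →* (Lp ℋ 2 (cdat ν hν).μ →L[ℂ] Lp ℋ 2 (cdat ν hν).μ))
          (AmpE.cst (cdat ν hν) ξ) T = ENNReal.ofReal (∑ i, ‖T (c i)‖ ^ 2) := by
      intro T
      rw [TRNF, ENNReal.ofReal_sum_of_nonneg fun i _ => sq_nonneg _]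
      refine Finset.sum_congr rfl fun i _ => ?_
      rw [TRN, tsum_fintype, Fintype.sum_unique]
      change ‖T (AmpE.cst (cdat ν hν) ξ i)‖ₑ ^ 2 = _
      rw [hc]
      exact H421.Hs.enn_sq' _
    rw [h2, h2] at h1
    have h3 := (ENNReal.ofReal_eq_ofReal_iff (Finset.sum_nonneg fun i _ => sq_nonneg _)
      (Finset.sum_nonneg fun i _ => sq_nonneg _)).1 h1
    rw [← h3]
    refine Finset.sum_congr rfl fun i _ => ?_
    rw [inv_inv]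
    congr 1
    exact (Ind.norm_map_of_adj (Ind.adjoint_pi (cdat ν hν) hV) g⁻¹ _).symm
  have h1 := sum_inner_eq key
  have e2 : ∀ (F : ι → Lp ℋ 2 (cdat ν hν).μ), ∑ i, ⟪s • F i, Y (s • F i)⟫_ℂ =
      (starRingEnd ℂ) s * s * ∑ i, ⟪F i, Y (F i)⟫_ℂ := by
    intro F
    rw [Finset.mul_sum]
    refine Finset.sum_congr rfl fun i _ => ?_
    rw [map_smul, inner_smul_left, inner_smul_right]
    ring
  simp_rw [e1, map_smul (Ind.pi (cdat ν hν) hV g)]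
  rw [e2, e2]
  congr 1

end tv

end Vale.Agent.P092.SNT
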