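import Vale.Agent.P092.SNT.X
import Vale.Agent.P092.SNT.Cl
import Vale.Agent.P092.SN.Main

/-!
P092, TEAM N, all amplifications (helper157): the assembly. `CoreAllE E` from the joints `SN.X` and
the concrete legs, for a source group `E` with one factor; the final statements.
-/

set_option linter.all false

open scoped InnerProductSpace ENNReal LinearAlgebra.Projectivization ZeroAtInfty
open Filter Topology ContinuousLinearMap MeasureTheory TopologicalSpace Matrix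

namespace Vale.Agent.P092.SNT

open Vale.Agent.P092.SN
open Vale.Agent.P092.RC (Cm TRN Moore GG PG YY y0 ct ampH ampH_ap ampW ampO ampW_union range_ampH
  amp_comm_iff adjV3)
open Vale.Agent.P092.H100.Gr (Gr)
open Vale.Agent.P092.H35 (sp)
open Vale.Agent.P092.H333.Amp
open Vale.Agent.P092.H85 (cdat)
open Vale.Agent.P092.H515.St (IsLattice LocK)

/-- All amplifications: `Γ` any ICC lattice of the group `E`. -/
def CoreAllE (E : Type) [Group E] [TopologicalSpace E] : Prop :=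
  ∀ (Γ : Subgroup E), IsLattice Γ →
    (∀ g : Γ, g ≠ 1 → Set.Infinite {y : Γ | ∃ h, y = h * g * h⁻¹}) → SR.St.SuperAll Γ

/-! ### The abstract part: both legs -/

section abs

variable {k : Type} [NontriviallyNormedField k] [ProperSpace k] {N : ℕ} {E Γ K : Type} [Group E]
  [TopologicalSpace E] [Group Γ] [NormedAddCommGroup K] [InnerProductSpace ℂ K] [CompleteSpace K]
  {ι : GG k N →* E} {a a' : E →* PG k (N + 1)} {π : E →* (K →L[ℂ] K)}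
  {lam₁ lam₂ : Γ →* (K →L[ℂ] K)} {X : Set (K →L[ℂ] K)}

/-- **Two legs of families give two commuting classical legs.** -/
theorem clegs_of [Countable Γ] [MeasurableSpace k] [OpensMeasurableSpace k] {μ : Measure k}
    (hLC : SN.X.LegComm k μ) (hCls : SN.X.ClsStmt k μ) (hXC : SN.X.XCStmt k)
    {κ κ₁ κ₂ : Type} [Fintype κ] [Fintype κ₁] [Fintype κ₂] {Ω : κ → K} {Ω₁ : κ₁ → K} {Ω₂ : κ₂ → K}
    (hp : RC.Pic2F π lam₁ lam₂ X Ω) (tv : TVEF π lam₁ (X ∪ Set.range lam₂) Ω)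
    {w₁ w₂ : kˣ} {m₁ m₂ : Set Γ → (K →L[ℂ] K)} {q₁ q₂ : Γ → GG k N} {Z₁ Z₂ : ℝ → Set Γ}
    {E₁ F₁ E₂ F₂ : YY k N → (CY k N →⋆ₐ[ℂ] (K →L[ℂ] K))}
    (l1 : LegNF μ w₁ ι a a' π lam₁ (X ∪ Set.range lam₂) Ω₁ m₁ q₁ Z₁ E₁ F₁)
    (l2 : LegNF μ w₂ ι a a' π lam₂ (X ∪ Set.range lam₁) Ω₂ m₂ q₂ Z₂ E₂ F₂)
    (i1 : ∀ γ, sp k (N + 1) (q₁ γ) = 1 → γ = 1) (i2 : ∀ γ, sp k (N + 1) (q₂ γ) = 1 → γ = 1)
    (d1 : ∀ C : ℝ, {γ : Γ | nm (q₁ γ) ≤ C}.Finite) (d2 : ∀ C : ℝ, {γ : Γ | nm (q₂ γ) ≤ C}.Finite) :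
    ∃ Q₁ Q₂ : C₀(PG k (N + 1), ℂ) →⋆ₙₐ[ℂ] (K →L[ℂ] K),
      H264.Cl.CLeg π lam₁ (X ∪ Set.range lam₂) (qP q₁ l1.ph) Q₁ ∧
      H264.Cl.CLeg π lam₂ (X ∪ Set.range lam₁) (qP q₂ l2.ph) Q₂ ∧
      ∀ ψ φ, Commute (Q₁ ψ) (Q₂ φ) := by
  obtain ⟨n₁, g₁⟩ := SN.X.exists_leg_amp l1
  obtain ⟨n₂, g₂⟩ := SN.X.exists_leg_amp l2
  obtain ⟨n₃, g₃⟩ := hp.leg₁.exists_amp
  obtain ⟨n₄, g₄⟩ := hp.leg₂.exists_amp
  obtain ⟨Q, _, _, ⟨jj⟩, hN⟩ := RC.exists_grp (κ ⊕ κ₁ ⊕ κ₂) (n₁ + n₂ + n₃ + n₄)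
  obtain ⟨j, -⟩ : ∃ j : κ ↪ Q, True := ⟨Function.Embedding.inl.trans jj, trivial⟩
  obtain ⟨j₁, -⟩ : ∃ j : κ₁ ↪ Q, True :=
    ⟨(Function.Embedding.inl.trans Function.Embedding.inr).trans jj, trivial⟩
  obtain ⟨j₂, -⟩ : ∃ j : κ₂ ↪ Q, True :=
    ⟨(Function.Embedding.inr.trans Function.Embedding.inr).trans jj, trivial⟩
  have L1 := g₁ Q (by omega) j₁
  have L2 := g₂ Q (by omega) j₂
  have P1 := g₃ Q (by omega) j
  have P2 := g₄ Q (by omega) j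
  have T1 : TVE (ampH Q π) (ampH Q lam₁) (ampW Q (X ∪ Set.range lam₂)) (ampO j Ω) := tvE_amp tv j
  have hM : ∀ Y ∈ SD.MM lam₂ (X ∪ Set.range lam₁), Y ∈ SD.MM lam₁ (X ∪ Set.range lam₂) := by
    rintro Y ⟨h1, h2⟩
    refine ⟨?_, fun γ => h1 _ (Or.inr ⟨γ, rfl⟩)⟩
    rintro w (hw | ⟨γ, rfl⟩)
    · exact h1 _ (Or.inl hw)
    · exact h2 γ
  have tv2 : TVEF π lam₂ (X ∪ Set.range lam₁) Ω := fun Y hY h => tv Y (hM Y hY) h
  have T2 : TVE (ampH Q π) (ampH Q lam₂) (ampW Q (X ∪ Set.range lam₁)) (ampO j Ω) := tvE_amp tv2 j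
  obtain ⟨G₁, c1, k1⟩ := hLC w₁ ι a a' _ _ _ _ _ q₁ Z₁ _ _ L1
  obtain ⟨G₂, c2, k2⟩ := hLC w₂ ι a a' _ _ _ _ _ q₂ Z₂ _ _ L2
  obtain ⟨σ₁, P, hP⟩ := hCls w₁ ι a a' _ _ _ _ _ q₁ Z₁ _ _ G₁ L1 c1 k1
  obtain ⟨σ₂, R, hR⟩ := hCls w₂ ι a a' _ _ _ _ _ q₂ Z₂ _ _ G₂ L2 c2 k2
  have C1 := cleg_of hP l1.ph i1 d1
  have C2 := cleg_of hR l2.ph i2 d2
  have hc : ∀ ψ φ, Commute (P ψ) (R φ) := by
    rw [ampW_union, ← range_ampH] at P1 P2 T1 T2 hP hR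
    refine hXC ι a a' (ampH Q π) (ampH Q lam₁) (ampH Q lam₂) (ampW Q X) (ampO j Ω) q₁ q₂ _ _ σ₁ σ₂
      P R l1.adm P1 P2 ?_ ?_ T1 T2 l1.ph l2.ph d1 d2 hP hR
    · rintro _ (⟨w, hw, rfl⟩ | ⟨f, rfl⟩)
      · rw [adjoint_amp]
        exact Or.inl ⟨_, hp.Xadj w hw, rfl⟩
      · rw [adjoint_sg]
        exact Or.inr ⟨_, rfl⟩
    · rintro _ (⟨w, hw, rfl⟩ | ⟨f, rfl⟩) g
      · rw [ampH_ap, ampH_ap, ← amp_mul, ← amp_mul]
        exact Or.inl ⟨_, hp.XP w hw g, rfl⟩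
      · have h1 : π g * π g⁻¹ = 1 := by rw [← map_mul, mul_inv_cancel, map_one]
        rw [ampH_ap, ampH_ap, amp_sg, mul_assoc, ← amp_mul, h1, amp_one, mul_one]
        exact Or.inr ⟨_, rfl⟩
  obtain ⟨P', e1, h1⟩ := cleg_unamp C1
  obtain ⟨R', e2, h2⟩ := cleg_unamp C2
  refine ⟨P', R', h1, h2, fun ψ φ => ?_⟩
  have h3 := hc ψ φ
  rw [e1, e2] at h3
  exact amp_comm_iff.1 h3

end abs

/-! ### The concrete picture -/

section conc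

open Vale.Agent.P092.SR Vale.Agent.P092.H160 Vale.Agent.P092.H103 Vale.Agent.P092.H962

/-- **[N-EX-T]** the concrete picture over a source group `E` with one factor, all amplifications:
both legs with their calculi. The families `Ω₁`, `Ω₂` are free. -/
def ExStmtT (k : Type) [NontriviallyNormedField k] [ProperSpace k] [MeasurableSpace k]
    (μ : Measure k) {N : ℕ} {E : Type} [Group E] [TopologicalSpace E]
    [IsTopologicalGroup E] [LocallyCompactSpace E] [SecondCountableTopology E] [T2Space E]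
    (ι : GG k N →* E) (a a' : E →* PG k (N + 1)) : Prop :=
  ∀ [MeasurableSpace E] [BorelSpace E] {Γ : Subgroup E} [DiscreteTopology Γ] [Countable Γ]
    [MeasurableSpace (E ⧸ Γ)] [BorelSpace (E ⧸ Γ)] {ν : Measure (E ⧸ Γ)}
    [IsProbabilityMeasure ν] (hν : ∀ g : E, ν.map (fun x => g • x) = ν)
    (_ : IsLattice Γ) (_ : ∀ g : Γ, g ≠ 1 → Set.Infinite {y : Γ | ∃ h, y = h * g * h⁻¹})
    {Λ : Type} [Group Λ] [Countable Λ]
    (_ : ∀ g : Λ, g ≠ 1 → Set.Infinite {y : Λ | ∃ h, y = h * g * h⁻¹})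
    {I : Type} [Fintype I] {α : Γ → (Ell2 (I × Λ) →L[ℂ] Ell2 (I × Λ))} (hα : AF α),
    ∃ (w : kˣ) (κ₁ κ₂ : Type) (_ : Fintype κ₁) (_ : Fintype κ₂)
      (Ω₁ : κ₁ → Lp (HH (PT α α α)) 2 (cdat ν hν).μ) (Ω₂ : κ₂ → Lp (HH (PT α α α)) 2 (cdat ν hν).μ)
      (m₁ m₂ : Set Γ → (Lp (HH (PT α α α)) 2 (cdat ν hν).μ →L[ℂ]
        Lp (HH (PT α α α)) 2 (cdat ν hν).μ)) (q₁ q₂ : Γ → GG k N)
      (E₁ F₁ E₂ F₂ : YY k N → (CY k N →⋆ₐ[ℂ] (Lp (HH (PT α α α)) 2 (cdat ν hν).μ →L[ℂ]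
        Lp (HH (PT α α α)) 2 (cdat ν hν).μ))),
      LegNF μ w ι a a' (H34.Ind.pi (cdat ν hν) (V := V3 hα hα hα) (adjV3 hα))
        (H34.Ind.lam (cdat ν hν) (A3R hα hα hα))
        (H34.Ind.Xset (cdat ν hν) (HH (PT α α α)) ∪
          Set.range (H34.Ind.lam (cdat ν hν) (B3R hα hα hα))) Ω₁ m₁ q₁ (fun _ => Set.univ) E₁ F₁ ∧
      LegNF μ w ι a a' (H34.Ind.pi (cdat ν hν) (V := V3 hα hα hα) (adjV3 hα))
        (H34.Ind.lam (cdat ν hν) (B3R hα hα hα))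
        (H34.Ind.Xset (cdat ν hν) (HH (PT α α α)) ∪
          Set.range (H34.Ind.lam (cdat ν hν) (A3R hα hα hα))) Ω₂ m₂ q₂ (fun _ => Set.univ) E₂ F₂ ∧
      (∀ γ, sp k (N + 1) (q₁ γ) = 1 → γ = 1) ∧ (∀ γ, sp k (N + 1) (q₂ γ) = 1 → γ = 1) ∧
      (∀ C : ℝ, {γ : Γ | nm (q₁ γ) ≤ C}.Finite) ∧ (∀ C : ℝ, {γ : Γ | nm (q₂ γ) ≤ C}.Finite)

/-- [N-EX-T] for `E = SL_n(k)`, all `n ≥ 3` -/
def ExSlT (k : Type) [NontriviallyNormedField k] [ProperSpace k] [MeasurableSpace k]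
    (μ : Measure k) : Prop :=
  ∀ {N : ℕ}, 2 ≤ N → ∀ [LocallyCompactSpace (GG k N)] [SecondCountableTopology (GG k N)],
    ExStmtT k μ (MonoidHom.id (GG k N)) (sp k (N + 1)) ((sp k (N + 1)).comp ct)

/-- **Assembly.** -/
theorem coreAllE_of {k : Type} [NontriviallyNormedField k] [ProperSpace k] [MeasurableSpace k]
    [OpensMeasurableSpace k] {μ : Measure k} {N : ℕ} {E : Type} [Group E] [TopologicalSpace E]
    [IsTopologicalGroup E] [LocallyCompactSpace E] [SecondCountableTopology E] [T2Space E]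
    [NoncompactSpace E] {ι : GG k N →* E} {a a' : E →* PG k (N + 1)}
    (hLC : SN.X.LegComm k μ) (hCls : SN.X.ClsStmt k μ) (hXC : SN.X.XCStmt k)
    (hEx : ExStmtT k μ ι a a') : CoreAllE E := by
  intro Γ hΓ hicc Λ _ _ hΛ n p hpj θ
  letI : MeasurableSpace E := borel _
  haveI : BorelSpace E := ⟨rfl⟩
  haveI hd : DiscreteTopology Γ := hΓ.disc
  haveI hc : Countable Γ := H790.countable_of_discrete (E := E) Γ
  letI : MeasurableSpace (E ⧸ Γ) := borel _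
  haveI : BorelSpace (E ⧸ Γ) := ⟨rfl⟩
  obtain ⟨ν, hP', hν⟩ := H515.IsLattice.exists_prob (Λ := Γ) ⟨hΓ.disc, hΓ.covol⟩
  have hα : AF (H103.alf θ) := H103.af_of hicc hpj θ
  obtain ⟨m, m', ξ, hT⟩ := H962.exists_tri hα hα hα hΛ
  obtain ⟨B, b, hB⟩ := H421.HsT.exists_basisHH (P := PT (H103.alf θ) (H103.alf θ) (H103.alf θ))
  have p2 := RC.pic2F_HH hν hα hα hα hicc hΛ (adjV3 hα) hT
  have tv := tv_tri hν (adjV3 hα) b hT
  obtain ⟨w, κ₁, κ₂, _, _, Ω₁, Ω₂, m₁, m₂, q₁, q₂, E₁, F₁, E₂, F₂, l1, l2, i1, i2, d1, d2⟩ :=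
    hEx (Γ := Γ) hν hΓ hicc hΛ hα
  obtain ⟨Q₁, Q₂, h1, h2, h12⟩ := clegs_of hLC hCls hXC p2 tv l1 l2 i1 i2 d1 d2
  exact H264.Amp.canonM_of_over hicc hΛ hpj θ rfl hα (H264.Amp.over_of_legs hν hT
    (X := H34.Ind.Xset (cdat ν hν) (HH (PT (H103.alf θ) (H103.alf θ) (H103.alf θ))))
    (fun S hS => ⟨S, hS, rfl⟩) h1 h2 h12)

theorem superAll_of_coreAllE {E : Type} [Group E] [TopologicalSpace E] (h : CoreAllE E) {Γ : Type}
    [Group Γ] (hicc : SR.St.ICC Γ) (i : Γ →* E) (hi : Function.Injective i)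
    (hl : IsLattice i.range) : SR.St.SuperAll Γ :=
  H58.superAll_equiv (MonoidHom.ofInjective hi)
    (h i.range hl (H133.icc_equiv (MonoidHom.ofInjective hi) hicc))

/-- The core statement for `SL_n(k)`, `n ≥ 3`. -/
theorem coreAllE_sl {k : Type} [NontriviallyNormedField k] [ProperSpace k] [MeasurableSpace k]
    [OpensMeasurableSpace k] {μ : Measure k} (hLC : SN.X.LegComm k μ) (hCls : SN.X.ClsStmt k μ)
    (hXC : SN.X.XCStmt k) (hEx : ExSlT k μ) {n : ℕ} (hn : 3 ≤ n) :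
    CoreAllE (SpecialLinearGroup (Fin n) k) := by
  obtain ⟨N, rfl⟩ : ∃ N, n = N + 1 := ⟨n - 1, by omega⟩
  haveI : LocallyCompactSpace (GG k N) := H303.locallyCompact_SL
  haveI : SecondCountableTopology (GG k N) := H303.secondCountable_SL
  haveI : NoncompactSpace (GG k N) := by
    refine H34.PicC.sl_noncompact (i := (0 : Fin (N + 1))) (j := ⟨1, by omega⟩) ?_
    intro h
    exact absurd (congrArg Fin.val h) (by norm_num)
  exact coreAllE_of (E := GG k N) hLC hCls hXC (hEx (by omega))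

theorem finalAll_of (h : ∀ (k : Type) [NontriviallyNormedField k] [ProperSpace k], LocK k →
    ∀ n, 3 ≤ n → CoreAllE (SpecialLinearGroup (Fin n) k)) : SN.St.FinalAll := by
  have h1 : ∀ (Γ : Type) [Group Γ], SN.St.SlLattice Γ → SR.St.SuperAll Γ := by
    intro Γ _ hΓ
    obtain ⟨hicc, k, _, n, i, hp, hk, hn, hi, hl⟩ := hΓ
    exact superAll_of_coreAllE (h k hk n hn) hicc i hi hl
  exact ⟨h1, fun n hn Γ hΓ hg => h1 Γ (slLattice_of_over (slLattice_of_finiteIndex hn Γ hg))⟩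

/-- `SN.St.FinalAll` for `k = ℝ` only -/
def FinalAllR : Prop :=
  (∀ (Γ : Type) [Group Γ], SN.St.SlLatticeOver ℝ Γ → SR.St.SuperAll Γ) ∧
  ∀ n : ℕ, 3 ≤ n → ∀ Γ : Subgroup (SpecialLinearGroup (Fin n) ℤ), Γ.FiniteIndex →
    (∀ g ∈ Γ, (g : Matrix (Fin n) (Fin n) ℤ) ≠ -1) → SR.St.SuperAll Γ

theorem finalAllR_of (h : ∀ n, 3 ≤ n → CoreAllE (SpecialLinearGroup (Fin n) ℝ)) : FinalAllR := by
  have h1 : ∀ (Γ : Type) [Group Γ], SN.St.SlLatticeOver ℝ Γ → SR.St.SuperAll Γ := by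
    intro Γ _ hΓ
    obtain ⟨hicc, n, i, hn, hi, hl⟩ := hΓ
    exact superAll_of_coreAllE (h n hn) hicc i hi hl
  exact ⟨h1, fun n hn Γ hΓ hg => h1 Γ (slLattice_of_finiteIndex hn Γ hg)⟩

/-- **The final statement over `ℝ`, all amplifications.** -/
theorem finalAllR (h1 : SN.X.W0Stmt ℝ volume) (h2 : SN.X.RkIStmt ℝ volume)
    (h3 : SN.X.KeyStmt ℝ volume) (h4 : SN.X.ClsStmt ℝ volume) (h5 : SN.X.XCStmt ℝ)
    (h6 : ExSlT ℝ volume) : FinalAllR :=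
  finalAllR_of fun _ hn => coreAllE_sl (SN.X.legComm_of h1 h2 h3) h4 h5 h6 hn

/-- **The final statement for all local fields and all amplifications.** -/
theorem finalAll (h : ∀ (k : Type) [NontriviallyNormedField k] [ProperSpace k] [MeasurableSpace k]
    [BorelSpace k] (μ : Measure k) [μ.IsAddHaarMeasure], H933.LocK k →
    SN.X.W0Stmt k μ ∧ SN.X.RkIStmt k μ ∧ SN.X.KeyStmt k μ ∧ SN.X.ClsStmt k μ ∧ SN.X.XCStmt k ∧
      ExSlT k μ) : SN.St.FinalAll := by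
  refine finalAll_of fun k _ _ hk n hn => ?_
  letI : MeasurableSpace k := borel k
  haveI : BorelSpace k := ⟨rfl⟩
  obtain ⟨h1, h2, h3, h4, h5, h6⟩ := h k (Measure.addHaar : Measure k) (lk hk)
  exact coreAllE_sl (SN.X.legComm_of h1 h2 h3) h4 h5 h6 hn

end conc

end Vale.Agent.P092.SNT
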