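import Vale.Agent.P092.SNT.Amp
import Vale.Agent.P092.SN.Blocks2

/-!
P092, TEAM N, all amplifications (helper157): the joints `SN.Blocks`, `SN.Blocks2` for the picture
`RC.PicX` (`RC.Pic` with the existential form of the field `inv`, without the commutativity of
`X`), and the amplification of the leg of a family. Every `Stmt` is a literal `Prop`.
-/

set_option linter.all false

open scoped InnerProductSpace ENNReal LinearAlgebra.Projectivization ZeroAtInfty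
open Filter Topology ContinuousLinearMap MeasureTheory TopologicalSpace

namespace Vale.Agent.P092.SN.X

open Vale.Agent.P092.SN
open Vale.Agent.P092.SD (Ms UC)
open Vale.Agent.P092.RC (Cm TRN Moore GG PG YY y0 ct ampH ampH_ap ampW ampO)
open Vale.Agent.P092.H790.CTA (ORBG SIZEG)
open Vale.Agent.P092.H100.Gr (Gr)
open Vale.Agent.P092.H644.Gr3 (p1 hyp)
open Vale.Agent.P092.SNT

section pic

variable {k : Type} [NontriviallyNormedField k] [ProperSpace k] {N : ℕ} {E Γ K : Type} [Group E]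
  [TopologicalSpace E] [Group Γ] [NormedAddCommGroup K] [InnerProductSpace ℂ K] [CompleteSpace K]

/-- `SN.LegN` for the picture `RC.PicX` -/
structure LegN [MeasurableSpace k] (μ : Measure k) (w : kˣ) (ι : GG k N →* E)
    (a a' : E →* PG k (N + 1)) (π : E →* (K →L[ℂ] K)) (lam : Γ →* (K →L[ℂ] K))
    (W : Set (K →L[ℂ] K)) (Ω : K) (m : Set Γ → (K →L[ℂ] K)) (q : Γ → GG k N) (Z : ℝ → Set Γ)
    (Ec F : YY k N → (CY k N →⋆ₐ[ℂ] (K →L[ℂ] K))) : Prop where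
  adm : Adm ι a a'
  hw : ‖(w : k)‖ < 1
  pic : RC.PicX π lam W Ω
  ms : Ms lam W Ω m
  uc : UC π W Ω m
  ph : PH q
  zm : Monotone Z
  ud : ∀ R, UD q (Z R)
  orb : ∀ {j : Fin (N + 1)} (hj : (0 : Fin (N + 1)) ≠ j), ∃ ρ : ℝ, 0 < ρ ∧ ρ < 1 ∧
    ORBG μ (ι (bw w)) (fun s => ι (un hj s)) ρ π lam W Ω
  orb' : ∀ {j : Fin (N + 1)} (hj : (0 : Fin (N + 1)) ≠ j), ∃ ρ : ℝ, 0 < ρ ∧ ρ < 1 ∧
    ORBG μ (ι (ct (bw w))) (fun s => ι (ct (un hj s))) ρ π lam W Ω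
  size : SIZEG (ι (bw w)) π Ω m fun γ => nm (q γ)
  size' : SIZEG (ι (ct (bw w))) π Ω m fun γ => nm (ct (q γ))
  nws : NWS w ι π Ω m q Z
  nws' : NWS w (ι.comp ct) π Ω m (fun γ => ct (q γ)) Z
  e : EFam w ι a π lam W m q Z Ec
  f : EFam w (ι.comp ct) a' π lam W m (fun γ => ct (q γ)) Z F
  /-- no `Γ`-invariant state on the functions of subspaces: `NIS fun γ x => q γ • x` -/
  nis : ∀ j, 1 ≤ j → j ≤ N → ∀ φ : CG k N j →ₗ[ℂ] ℂ, (∀ f, 0 ≤ (φ (star f * f)).re) →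
    φ 1 = 1 → (∀ γ, ∀ f f' : CG k N j, (∀ x, f' (q γ • x) = f x) → φ f' = φ f) → False

end pic

/-! ### The joints -/

section stmts

variable (k : Type) [NontriviallyNormedField k] [ProperSpace k]

/-- [N-W0] -/
def W0Stmt [MeasurableSpace k] (μ : Measure k) : Prop :=
  ∀ {N : ℕ} {E Γ K : Type} [Group E] [TopologicalSpace E] [Group Γ] [NormedAddCommGroup K]
    [InnerProductSpace ℂ K] [CompleteSpace K] (w : kˣ) (ι : GG k N →* E)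
    (a a' : E →* PG k (N + 1)) (π : E →* (K →L[ℂ] K)) (lam : Γ →* (K →L[ℂ] K))
    (W : Set (K →L[ℂ] K)) (Ω : K) (m : Set Γ → (K →L[ℂ] K)) (q : Γ → GG k N) (Z : ℝ → Set Γ)
    (Ec F : YY k N → (CY k N →⋆ₐ[ℂ] (K →L[ℂ] K))),
    X.LegN μ w ι a a' π lam W Ω m q Z Ec F → W0 Ec F

/-- [N-RKI] -/
def RkIStmt [MeasurableSpace k] (μ : Measure k) : Prop :=
  ∀ {N : ℕ} {E Γ K : Type} [Group E] [TopologicalSpace E] [Group Γ] [NormedAddCommGroup K]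
    [InnerProductSpace ℂ K] [CompleteSpace K] (w : kˣ) (ι : GG k N →* E)
    (a a' : E →* PG k (N + 1)) (π : E →* (K →L[ℂ] K)) (lam : Γ →* (K →L[ℂ] K))
    (W : Set (K →L[ℂ] K)) (Ω : K) (m : Set Γ → (K →L[ℂ] K)) (q : Γ → GG k N) (Z : ℝ → Set Γ)
    (Ec F : YY k N → (CY k N →⋆ₐ[ℂ] (K →L[ℂ] K))),
    X.LegN μ w ι a a' π lam W Ω m q Z Ec F → W0 Ec F →
    ∃ G : ∀ j, Gr k (Fin (N + 1)) j → (CG k N j →⋆ₐ[ℂ] (K →L[ℂ] K)), CalN ι π lam W q Ec F G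

/-- [N-KL] -/
def KeyStmt [MeasurableSpace k] (μ : Measure k) : Prop :=
  ∀ {N : ℕ} {E Γ K : Type} [Group E] [TopologicalSpace E] [Group Γ] [NormedAddCommGroup K]
    [InnerProductSpace ℂ K] [CompleteSpace K] (w : kˣ) (ι : GG k N →* E)
    (a a' : E →* PG k (N + 1)) (π : E →* (K →L[ℂ] K)) (lam : Γ →* (K →L[ℂ] K))
    (W : Set (K →L[ℂ] K)) (Ω : K) (m : Set Γ → (K →L[ℂ] K)) (q : Γ → GG k N) (Z : ℝ → Set Γ)
    (Ec F : YY k N → (CY k N →⋆ₐ[ℂ] (K →L[ℂ] K)))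
    (G : ∀ j, Gr k (Fin (N + 1)) j → (CG k N j →⋆ₐ[ℂ] (K →L[ℂ] K))),
    X.LegN μ w ι a a' π lam W Ω m q Z Ec F → CalN ι π lam W q Ec F G → H218.NC.Key₁ G

/-- in one leg everything commutes -/
def LegComm [MeasurableSpace k] (μ : Measure k) : Prop :=
  ∀ {N : ℕ} {E Γ K : Type} [Group E] [TopologicalSpace E] [Group Γ] [NormedAddCommGroup K]
    [InnerProductSpace ℂ K] [CompleteSpace K] (w : kˣ) (ι : GG k N →* E)
    (a a' : E →* PG k (N + 1)) (π : E →* (K →L[ℂ] K)) (lam : Γ →* (K →L[ℂ] K))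
    (W : Set (K →L[ℂ] K)) (Ω : K) (m : Set Γ → (K →L[ℂ] K)) (q : Γ → GG k N) (Z : ℝ → Set Γ)
    (Ec F : YY k N → (CY k N →⋆ₐ[ℂ] (K →L[ℂ] K))),
    X.LegN μ w ι a a' π lam W Ω m q Z Ec F →
    ∃ G : ∀ j, Gr k (Fin (N + 1)) j → (CG k N j →⋆ₐ[ℂ] (K →L[ℂ] K)),
      CalN ι π lam W q Ec F G ∧ H218.NC.Key₁ G

/-- [N-CLS] -/
def ClsStmt [MeasurableSpace k] (μ : Measure k) : Prop :=
  ∀ {N : ℕ} {E Γ K : Type} [Group E] [TopologicalSpace E] [Group Γ] [NormedAddCommGroup K]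
    [InnerProductSpace ℂ K] [CompleteSpace K] (w : kˣ) (ι : GG k N →* E)
    (a a' : E →* PG k (N + 1)) (π : E →* (K →L[ℂ] K)) (lam : Γ →* (K →L[ℂ] K))
    (W : Set (K →L[ℂ] K)) (Ω : K) (m : Set Γ → (K →L[ℂ] K)) (q : Γ → GG k N) (Z : ℝ → Set Γ)
    (Ec F : YY k N → (CY k N →⋆ₐ[ℂ] (K →L[ℂ] K)))
    (G : ∀ j, Gr k (Fin (N + 1)) j → (CG k N j →⋆ₐ[ℂ] (K →L[ℂ] K))),
    X.LegN μ w ι a a' π lam W Ω m q Z Ec F → CalN ι π lam W q Ec F G → H218.NC.Key₁ G →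
    ∃ (σ : k →+* k) (Q : C₀(PG k (N + 1), ℂ) →⋆ₙₐ[ℂ] (K →L[ℂ] K)), ClsN a π lam W q Ec σ Q

/-- [N-XC] the two legs commute (one factor) -/
def XCStmt : Prop :=
  ∀ {N : ℕ} {E Γ K : Type} [Group E] [TopologicalSpace E] [Group Γ] [Countable Γ]
    [NormedAddCommGroup K] [InnerProductSpace ℂ K] [CompleteSpace K] (ι : GG k N →* E)
    (a a' : E →* PG k (N + 1)) (π : E →* (K →L[ℂ] K)) (lam₁ lam₂ : Γ →* (K →L[ℂ] K))
    (X : Set (K →L[ℂ] K)) (Ω : K) (q₁ q₂ : Γ → GG k N)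
    (E₁ E₂ : YY k N → (CY k N →⋆ₐ[ℂ] (K →L[ℂ] K))) (σ₁ σ₂ : k →+* k)
    (Q₁ Q₂ : C₀(PG k (N + 1), ℂ) →⋆ₙₐ[ℂ] (K →L[ℂ] K)),
    Adm ι a a' → RC.PicX π lam₁ (X ∪ Set.range lam₂) Ω →
    RC.PicX π lam₂ (X ∪ Set.range lam₁) Ω → (∀ x ∈ X, adjoint x ∈ X) →
    (∀ x ∈ X, ∀ g, π g * x * π g⁻¹ ∈ X) → TVE π lam₁ (X ∪ Set.range lam₂) Ω →
    TVE π lam₂ (X ∪ Set.range lam₁) Ω → PH q₁ → PH q₂ →
    (∀ C : ℝ, {γ : Γ | nm (q₁ γ) ≤ C}.Finite) → (∀ C : ℝ, {γ : Γ | nm (q₂ γ) ≤ C}.Finite) →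
    ClsN a π lam₁ (X ∪ Set.range lam₂) q₁ E₁ σ₁ Q₁ →
    ClsN a π lam₂ (X ∪ Set.range lam₁) q₂ E₂ σ₂ Q₂ →
    ∀ ψ φ, Commute (Q₁ ψ) (Q₂ φ)

end stmts

theorem legComm_of {k : Type} [NontriviallyNormedField k] [ProperSpace k] [MeasurableSpace k]
    {μ : Measure k} (h1 : W0Stmt k μ) (h2 : RkIStmt k μ) (h3 : KeyStmt k μ) : LegComm k μ := by
  intro N E Γ K _ _ _ _ _ _ w ι a a' π lam W Ω m q Z Ec F h
  obtain ⟨G, hG⟩ := h2 w ι a a' π lam W Ω m q Z Ec F h (h1 w ι a a' π lam W Ω m q Z Ec F h)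
  exact ⟨G, hG, h3 w ι a a' π lam W Ω m q Z Ec F G h hG⟩

/-! ### The amplification of the leg of a family -/

section amp

variable {k : Type} [NontriviallyNormedField k] [ProperSpace k] {N : ℕ} {E Γ K κ Q : Type}
  [Group E] [TopologicalSpace E] [Group Γ] [NormedAddCommGroup K] [InnerProductSpace ℂ K]
  [CompleteSpace K] [Fintype κ] [Group Q] [Fintype Q]
  {w : kˣ} {ι : GG k N →* E} {a a' : E →* PG k (N + 1)} {π : E →* (K →L[ℂ] K)}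
  {lam : Γ →* (K →L[ℂ] K)} {W : Set (K →L[ℂ] K)} {Ω : κ → K} {m : Set Γ → (K →L[ℂ] K)}
  {q : Γ → GG k N} {Z : ℝ → Set Γ} {Ec F : YY k N → (CY k N →⋆ₐ[ℂ] (K →L[ℂ] K))}

/-- The amplified leg has one vector. `hp` is the amplified picture. -/
theorem leg_amp [MeasurableSpace k] [OpensMeasurableSpace k] {μ : Measure k}
    (h : LegNF μ w ι a a' π lam W Ω m q Z Ec F) (j : κ ↪ Q)
    (hp : RC.PicX (ampH Q π) (ampH Q lam) (ampW Q W) (ampO j Ω)) :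
    X.LegN μ w ι a a' (ampH Q π) (ampH Q lam) (ampW Q W) (ampO j Ω)
      (fun S => H333.Amp.amp (Q := Q) (m S)) q Z (fun x => ampC Q (Ec x))
      (fun x => ampC Q (F x)) where
  adm := h.adm
  hw := h.hw
  pic := hp
  ms := h.ms.amp j
  uc := uc_ampG h.uc j
  ph := h.ph
  zm := h.zm
  ud := h.ud
  orb hj := by
    haveI := h.adm.tg
    obtain ⟨ρ, h0, h1, h2⟩ := h.orb hj
    exact ⟨ρ, h0, h1, orb_ampG (h.adm.cι.comp (continuous_unN hj)) h.pic.contP h0.le h2 j⟩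
  orb' hj := by
    haveI := h.adm.tg
    obtain ⟨ρ, h0, h1, h2⟩ := h.orb' hj
    exact ⟨ρ, h0, h1, orb_ampG (h.adm.cι.comp (continuous_ctN.comp (continuous_unN hj)))
      h.pic.contP h0.le h2 j⟩
  size := size_ampG h.size j
  size' := size_ampG h.size' j
  nws := nws_ampN h.ms h.zm h.nws j
  nws' := nws_ampN h.ms h.zm h.nws' j
  e := efam_ampN h.ms h.zm h.e
  f := efam_ampN h.ms h.zm h.f
  nis := h.nis

/-- the same for all sufficiently large amplifications -/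
theorem exists_leg_amp [MeasurableSpace k] [OpensMeasurableSpace k] {μ : Measure k}
    (h : LegNF μ w ι a a' π lam W Ω m q Z Ec F) :
    ∃ n : ℕ, ∀ (Q : Type) [Group Q] [Fintype Q], n ≤ Fintype.card Q → ∀ j : κ ↪ Q,
      X.LegN μ w ι a a' (ampH Q π) (ampH Q lam) (ampW Q W) (ampO j Ω)
        (fun S => H333.Amp.amp (Q := Q) (m S)) q Z (fun x => ampC Q (Ec x))
        (fun x => ampC Q (F x)) := by
  obtain ⟨n, hn⟩ := h.pic.exists_amp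
  exact ⟨n, fun Q _ _ hQ j => leg_amp h j (hn Q hQ j)⟩

end amp

end Vale.Agent.P092.SN.X
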