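import Vale.Agent.P092.H958.AmpD
import Vale.Agent.P092.SN.Defs

/-!
P092, TEAM N, all amplifications (helper157): the leg `SN.LegN` with a finite family of vectors in
the place of the trace vector, and its amplification `K ⊗ ℂ^Q`, which has one vector.
-/

set_option linter.all false

open scoped InnerProductSpace ENNReal LinearAlgebra.Projectivization ZeroAtInfty
open Filter Topology ContinuousLinearMap MeasureTheory TopologicalSpace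

namespace Vale.Agent.P092.SNT

open Vale.Agent.P092.SN Vale.Agent.P092.H333.Amp
open Vale.Agent.P092.SD (Ms UC MM MsF norm_amp_le norm_le_coord)
open Vale.Agent.P092.RC (Cm TRN Moore GG PG YY y0 ct TRNF PicF ampH ampH_ap ampW ampO ampO_ap
  ampO_ne sum_ampO cm_ampW cm_amp amp_comm_iff inner_ampO norm_ampO trn_amp enorm_sq_KT ampS
  ampS_ap)
open Vale.Agent.P092.H790.CTA (ORBG SIZEG)
open Vale.Agent.P092.H100.Gr (Gr)
open Vale.Agent.P092.H644.Gr3 (p1 hyp)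

/-! ### General groups -/

section gen

variable {G Γ K ι Q V : Type} [Group G] [TopologicalSpace G] [Group Γ] [NormedAddCommGroup K]
  [InnerProductSpace ℂ K] [CompleteSpace K] [Fintype ι] [Group Q] [Fintype Q]
  [NormedAddCommGroup V] [MeasurableSpace V]

/-- `H790.CTA.ORBG` for a family of vectors -/
def ORBGF (μ : Measure V) (b : G) (n : V → G) (ρ : ℝ) (π : G →* (K →L[ℂ] K))
    (lam : Γ →* (K →L[ℂ] K)) (W : Set (K →L[ℂ] K)) (Ω : ι → K) : Prop :=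
  ∀ i, ∀ g : G, ∀ δ > 0, ∃ C : ℝ, ∀ N : ℕ, ∀ T, Cm W T → ‖T‖ ≤ 1 →
    ∫⁻ s in Metric.closedBall (0 : V) 1, ‖T (π (g * b ^ N * n s * g⁻¹)⁻¹ (Ω i))‖ₑ ^ 2 ∂μ ≤
      ENNReal.ofReal (C * ρ ^ N) * TRNF lam Ω T + ENNReal.ofReal δ

variable {π : G →* (K →L[ℂ] K)} {lam : Γ →* (K →L[ℂ] K)} {W : Set (K →L[ℂ] K)} {Ω : ι → K}
  {m : Set Γ → (K →L[ℂ] K)}

theorem uc_ampG (h : ∀ i, UC π W (Ω i) m) (j : ι ↪ Q) :
    UC (ampH Q π) (ampW Q W) (ampO j Ω) (fun S => H333.Amp.amp (Q := Q) (m S)) := by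
  intro δ hδ
  have h1 : ∀ i, ∀ᶠ g in 𝓝 (1 : G), ∀ S, ∀ B, Cm W B → ‖B‖ ≤ 1 → ∀ h,
      ‖(m S * π g - π g * m S) (B (π h (Ω i)))‖ ≤ δ / (Fintype.card ι + 1) :=
    fun i => h i _ (by positivity)
  filter_upwards [Filter.eventually_all.2 h1] with g hg S B hB hB1 v
  obtain ⟨B', rfl, hB'⟩ := cm_ampW.1 hB
  rw [norm_amp] at hB1
  exact norm_amp_le (T := (m S * π g - π g * m S) * B' * π v) j Ω hδ.le
    fun i => hg i S B' hB' hB1 v

theorem size_ampG {b : G} {sz : Γ → ℝ} (h : ∀ i, SIZEG b π (Ω i) m sz) (j : ι ↪ Q) :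
    SIZEG b (ampH Q π) (ampO j Ω) (fun S => H333.Amp.amp (Q := Q) (m S)) sz := by
  intro g η hη ε hε
  have h1 : ∀ i, ∀ᶠ N : ℕ in atTop, ‖m {γ | Real.exp (Real.exp (η * N)) < sz γ}
      (π (g * b ^ N * g⁻¹)⁻¹ (Ω i))‖ ≤ ε / (Fintype.card ι + 1) :=
    fun i => h i g η hη _ (by positivity)
  filter_upwards [Filter.eventually_all.2 h1] with N hN
  exact norm_amp_le (T := m {γ | Real.exp (Real.exp (η * N)) < sz γ} *
    π (g * b ^ N * g⁻¹)⁻¹) j Ω hε.le hN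

theorem orb_ampG [OpensMeasurableSpace V] [IsTopologicalGroup G] {μ : Measure V} {b : G}
    {n : V → G} {ρ : ℝ} (hn : Continuous n) (hc : ∀ ξ, Continuous fun g => π g ξ) (hρ : 0 ≤ ρ)
    (h : ORBGF μ b n ρ π lam W Ω) (j : ι ↪ Q) :
    ORBG μ b n ρ (ampH Q π) (ampH Q lam) (ampW Q W) (ampO j Ω) := by
  intro g δ hδ
  have h1 : ∀ i, ∃ C : ℝ, ∀ N : ℕ, ∀ T, Cm W T → ‖T‖ ≤ 1 →
      ∫⁻ s in Metric.closedBall (0 : V) 1, ‖T (π (g * b ^ N * n s * g⁻¹)⁻¹ (Ω i))‖ₑ ^ 2 ∂μ ≤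
      ENNReal.ofReal (C * ρ ^ N) * TRNF lam Ω T +
        ENNReal.ofReal (δ / (Fintype.card ι + 1)) := fun i => h i g _ (by positivity)
  choose C hC using h1
  refine ⟨∑ i, |C i|, fun N T hT hT1 => ?_⟩
  obtain ⟨T', rfl, hT'⟩ := cm_ampW.1 hT
  rw [norm_amp] at hT1
  rw [trn_amp]
  have h2 : ∀ s : V, ‖H333.Amp.amp (Q := Q) T' (ampH Q π (g * b ^ N * n s * g⁻¹)⁻¹
      (ampO j Ω))‖ₑ ^ 2 = ∑ i, ‖T' (π (g * b ^ N * n s * g⁻¹)⁻¹ (Ω i))‖ₑ ^ 2 := by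
    intro s
    rw [enorm_sq_KT]
    exact sum_ampO j Ω (fun v => ‖T' (π (g * b ^ N * n s * g⁻¹)⁻¹ v)‖ₑ ^ 2) (by simp)
  simp_rw [h2]
  have hm : ∀ i, Measurable fun s : V => ‖T' (π (g * b ^ N * n s * g⁻¹)⁻¹ (Ω i))‖ₑ ^ 2 := by
    intro i
    have c1 : Continuous fun s : V => (g * b ^ N * n s * g⁻¹)⁻¹ :=
      ((continuous_const.mul hn).mul continuous_const).inv
    have c2 : Continuous fun s : V => T' (π (g * b ^ N * n s * g⁻¹)⁻¹ (Ω i)) :=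
      T'.continuous.comp ((hc (Ω i)).comp c1)
    exact ((continuous_enorm.comp c2).measurable).pow_const 2
  rw [lintegral_finset_sum _ fun i _ => hm i]
  have hρN : ∀ N : ℕ, 0 ≤ ρ ^ N := fun N => pow_nonneg hρ N
  have h3 : ∀ i, ENNReal.ofReal (C i * ρ ^ N) * TRNF lam Ω T' ≤
      ENNReal.ofReal (|C i| * ρ ^ N) * TRNF lam Ω T' := fun i => by
    gcongr
    exact le_abs_self _
  calc ∑ i, ∫⁻ s in Metric.closedBall (0 : V) 1,
        ‖T' (π (g * b ^ N * n s * g⁻¹)⁻¹ (Ω i))‖ₑ ^ 2 ∂μ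
      ≤ ∑ i, (ENNReal.ofReal (|C i| * ρ ^ N) * TRNF lam Ω T' +
          ENNReal.ofReal (δ / (Fintype.card ι + 1))) := by
        refine Finset.sum_le_sum fun i _ => (hC i N T' hT' hT1).trans ?_
        exact add_le_add_left (h3 i) _
    _ = ENNReal.ofReal ((∑ i, |C i|) * ρ ^ N) * TRNF lam Ω T' +
          Fintype.card ι * ENNReal.ofReal (δ / (Fintype.card ι + 1)) := by
        have e0 : ENNReal.ofReal ((∑ i, |C i|) * ρ ^ N) =
            ∑ i, ENNReal.ofReal (|C i| * ρ ^ N) := by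
          rw [Finset.sum_mul, ENNReal.ofReal_sum_of_nonneg fun i _ =>
            mul_nonneg (abs_nonneg _) (hρN N)]
        rw [Finset.sum_add_distrib, ← Finset.sum_mul, Finset.sum_const, Finset.card_univ,
          nsmul_eq_mul, e0]
    _ ≤ _ := by
        refine add_le_add_right ?_ _
        have e1 : (Fintype.card ι : ℝ≥0∞) = ENNReal.ofReal (Fintype.card ι : ℝ) := by
          rw [ENNReal.ofReal_natCast]
        rw [e1, ← ENNReal.ofReal_mul (Nat.cast_nonneg _)]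
        refine ENNReal.ofReal_le_ofReal ?_
        rw [mul_div_assoc', div_le_iff₀ (by positivity)]
        nlinarith

end gen

/-! ### One leg with a family of vectors -/

section defs

variable {k : Type} [NontriviallyNormedField k] [ProperSpace k] {N : ℕ} {E Γ K ι : Type} [Group E]
  [TopologicalSpace E] [Group Γ] [NormedAddCommGroup K] [InnerProductSpace ℂ K] [CompleteSpace K]
  [Fintype ι]

/-- `SN.LegN` for a family of vectors -/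
structure LegNF [MeasurableSpace k] (μ : Measure k) (w : kˣ) (ι₀ : GG k N →* E)
    (a a' : E →* PG k (N + 1)) (π : E →* (K →L[ℂ] K)) (lam : Γ →* (K →L[ℂ] K))
    (W : Set (K →L[ℂ] K)) (Ω : ι → K) (m : Set Γ → (K →L[ℂ] K)) (q : Γ → GG k N)
    (Z : ℝ → Set Γ) (Ec F : YY k N → (CY k N →⋆ₐ[ℂ] (K →L[ℂ] K))) : Prop where
  adm : Adm ι₀ a a'
  hw : ‖(w : k)‖ < 1
  pic : PicF π lam W Ω
  ms : MsF lam W Ω m
  uc : ∀ i, UC π W (Ω i) m
  ph : PH q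
  zm : Monotone Z
  ud : ∀ R, UD q (Z R)
  orb : ∀ {j : Fin (N + 1)} (hj : (0 : Fin (N + 1)) ≠ j), ∃ ρ : ℝ, 0 < ρ ∧ ρ < 1 ∧
    ORBGF μ (ι₀ (bw w)) (fun s => ι₀ (un hj s)) ρ π lam W Ω
  orb' : ∀ {j : Fin (N + 1)} (hj : (0 : Fin (N + 1)) ≠ j), ∃ ρ : ℝ, 0 < ρ ∧ ρ < 1 ∧
    ORBGF μ (ι₀ (ct (bw w))) (fun s => ι₀ (ct (un hj s))) ρ π lam W Ω
  size : ∀ i, SIZEG (ι₀ (bw w)) π (Ω i) m fun γ => nm (q γ)
  size' : ∀ i, SIZEG (ι₀ (ct (bw w))) π (Ω i) m fun γ => nm (ct (q γ))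
  nws : ∀ i, NWS w ι₀ π (Ω i) m q Z
  nws' : ∀ i, NWS w (ι₀.comp ct) π (Ω i) m (fun γ => ct (q γ)) Z
  e : EFam w ι₀ a π lam W m q Z Ec
  f : EFam w (ι₀.comp ct) a' π lam W m (fun γ => ct (q γ)) Z F
  nis : ∀ j, 1 ≤ j → j ≤ N → ∀ φ : CG k N j →ₗ[ℂ] ℂ, (∀ f, 0 ≤ (φ (star f * f)).re) →
    φ 1 = 1 → (∀ γ, ∀ f f' : CG k N j, (∀ x, f' (q γ • x) = f x) → φ f' = φ f) → False

end defs

/-! ### The amplification -/

section amp

variable {k : Type} [NontriviallyNormedField k] [ProperSpace k] {N : ℕ} {E Γ K ι Q : Type}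
  [Group E] [TopologicalSpace E] [Group Γ] [NormedAddCommGroup K] [InnerProductSpace ℂ K]
  [CompleteSpace K] [Fintype ι] [Group Q] [Fintype Q]

/-- `E ⊗ 1` -/
noncomputable def ampC (Q : Type) [Group Q] [Fintype Q] {A : Type*} [Semiring A] [Algebra ℂ A]
    [StarRing A] (E : A →⋆ₐ[ℂ] (K →L[ℂ] K)) : A →⋆ₐ[ℂ] (KT Q K →L[ℂ] KT Q K) :=
  (ampS Q K).comp E

theorem ampC_ap {A : Type*} [Semiring A] [Algebra ℂ A] [StarRing A] (E : A →⋆ₐ[ℂ] (K →L[ℂ] K))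
    (f : A) : ampC Q E f = amp (E f) := rfl

theorem nm_nonneg (h : GG k N) : 0 ≤ nm h := norm_nonneg _

theorem NW_mono {R R' : ℝ} (hR : R ≤ R') {h : GG k N} (hh : NW R h) : NW R' h :=
  hh.trans (mul_le_mul_of_nonneg_right hR (nm_nonneg h))

theorem NWA_mono {q : Γ → GG k N} {Z : ℝ → Set Γ} (hZ : Monotone Z) {R R' T : ℝ} (hR : R ≤ R')
    (A : Set (YY k N)) : NWA q Z R T A ⊆ NWA q Z R' T A :=
  fun _ h => ⟨hZ hR h.1, NW_mono hR h.2.1, h.2.2⟩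

variable {w : kˣ} {ι₀ : GG k N →* E} {a a' : E →* PG k (N + 1)} {π : E →* (K →L[ℂ] K)}
  {lam : Γ →* (K →L[ℂ] K)} {W : Set (K →L[ℂ] K)} {Ω : ι → K} {m : Set Γ → (K →L[ℂ] K)}
  {q : Γ → GG k N} {Z : ℝ → Set Γ} {Ec F : YY k N → (CY k N →⋆ₐ[ℂ] (K →L[ℂ] K))}

theorem nws_ampN (hm : MsF lam W Ω m) (hZ : Monotone Z) (h : ∀ i, NWS w ι₀ π (Ω i) m q Z)
    (j : ι ↪ Q) :
    NWS w ι₀ (ampH Q π) (ampO j Ω) (fun S => H333.Amp.amp (Q := Q) (m S)) q Z := by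
  intro g ε hε
  have h1 : ∀ i, ∃ R : ℝ, ∀ t : ℕ, ‖m {γ | ¬ (γ ∈ Z R ∧ NW R (q γ))}
      (π (ι₀ (g * bw w ^ t * g⁻¹))⁻¹ (Ω i))‖ ≤ ε / (Fintype.card ι + 1) :=
    fun i => h i g _ (by positivity)
  choose R hR using h1
  obtain ⟨R', hR'⟩ := (Set.finite_range R).bddAbove
  refine ⟨R', fun t => ?_⟩
  obtain ⟨x, hx⟩ : ∃ x : E, x = (ι₀ (g * bw w ^ t * g⁻¹))⁻¹ := ⟨_, rfl⟩
  obtain ⟨S, hS⟩ : ∃ S : Set Γ, S = {γ | ¬ (γ ∈ Z R' ∧ NW R' (q γ))} := ⟨_, rfl⟩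
  have e1 : ∀ (A B : K →L[ℂ] K) (v : KT Q K), H333.Amp.amp (Q := Q) A (H333.Amp.amp (Q := Q) B v) =
      H333.Amp.amp (Q := Q) (A * B) v := fun A B v => by rw [amp_mul]; rfl
  rw [← hx, ← hS, ampH_ap, e1]
  refine norm_amp_le j Ω hε.le fun i => ?_
  have h2 := hR i t
  rw [← hx] at h2
  refine le_trans ?_ h2
  change ‖m S (π x (Ω i))‖ ≤ _
  refine hm.mono ?_ _
  intro γ hγ hc
  rw [hS] at hγ
  exact hγ ⟨hZ (hR' ⟨i, rfl⟩) hc.1, NW_mono (hR' ⟨i, rfl⟩) hc.2⟩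

theorem efam_ampN (hm : MsF lam W Ω m) (hZ : Monotone Z) (h : EFam w ι₀ a π lam W m q Z Ec) :
    EFam w ι₀ a (ampH Q π) (ampH Q lam) (ampW Q W) (fun S => H333.Amp.amp (Q := Q) (m S)) q Z
      (fun x => ampC Q (Ec x)) where
  cm x f := cm_amp (h.cm x f)
  cov γ x f := by rw [ampC_ap, ampC_ap, ampH_ap, ampH_ap, ← amp_mul, ← amp_mul, h.cov]
  pcov g x f := by rw [ampC_ap, ampC_ap, ampH_ap, ampH_ap, ← amp_mul, ← amp_mul, h.pcov]
  dom g u A hA hu ζ ε hε := by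
    have h1 : ∀ x : Q, ∃ R : ℝ, ∀ T > 0, ∀ᶠ t : ℕ in atTop,
      ‖Ec (g • y0) u (ζ x)‖ ≤ ‖u‖ * ‖m (NWA q Z R T A)
        (π (ι₀ (g * bw w ^ t * g⁻¹))⁻¹ (ζ x))‖ + ε / (Fintype.card Q + 1) :=
      fun x => h.dom g u A hA hu (ζ x) _ (by positivity)
    choose R hR using h1
    obtain ⟨R', hR'⟩ := (Set.finite_range R).bddAbove
    refine ⟨R', fun T hT => ?_⟩
    filter_upwards [Filter.eventually_all.2 fun x => hR x T hT] with t ht
    refine norm_le_coord (norm_nonneg _) hε.le fun x => ?_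
    have h2 : ‖m (NWA q Z (R x) T A) (π (ι₀ (g * bw w ^ t * g⁻¹))⁻¹ (ζ x))‖ ≤
        ‖m (NWA q Z R' T A) (π (ι₀ (g * bw w ^ t * g⁻¹))⁻¹ (ζ x))‖ :=
      hm.mono (NWA_mono hZ (hR' ⟨x, rfl⟩) A) _
    have h3 : ‖(ampC Q (Ec (g • y0)) u) ζ x‖ = ‖Ec (g • y0) u (ζ x)‖ := rfl
    have h4 : ‖(H333.Amp.amp (Q := Q) (m (NWA q Z R' T A)))
        (ampH Q π (ι₀ (g * bw w ^ t * g⁻¹))⁻¹ ζ) x‖ =
        ‖m (NWA q Z R' T A) (π (ι₀ (g * bw w ^ t * g⁻¹))⁻¹ (ζ x))‖ := rfl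
    rw [h3, h4]
    exact (ht x).trans (add_le_add_left (mul_le_mul_of_nonneg_left h2 (norm_nonneg _)) _)
  agr x y hxy ξ hξ := by
    apply ext_co
    intro z
    refine h.agr x y hxy (ξ z) fun f => ?_
    exact congrArg (fun v : KT Q K => v z) (hξ f)

theorem continuous_unN {j : Fin (N + 1)} (hj : (0 : Fin (N + 1)) ≠ j) :
    Continuous fun s : k => (un hj s : GG k N) := by
  refine continuous_induced_rng.2 ?_
  change Continuous fun s : k => (un hj s : GG k N).1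
  simp only [SN.un, Matrix.SpecialLinearGroup.transvection_coe]
  refine continuous_const.add ?_
  refine continuous_pi fun a => continuous_pi fun b => ?_
  simp only [Matrix.single_apply]
  split_ifs
  · exact continuous_id
  · exact continuous_const

theorem continuous_ctN : Continuous (ct : GG k N →* GG k N) := by
  haveI : IsTopologicalGroup (Matrix.SpecialLinearGroup (Fin (N + 1)) k) :=
    Matrix.SpecialLinearGroup.topologicalGroup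
  refine Continuous.subtype_mk ?_ _
  have h1 : Continuous fun g : Matrix.SpecialLinearGroup (Fin (N + 1)) k => g⁻¹ := continuous_inv
  exact (continuous_subtype_val.comp h1).matrix_transpose

/-- **The amplified leg has one vector.** `hp` is the amplified picture. -/
theorem LegNF.amp [MeasurableSpace k] [OpensMeasurableSpace k] {μ : Measure k}
    (h : LegNF μ w ι₀ a a' π lam W Ω m q Z Ec F) (j : ι ↪ Q)
    (hp : RC.Pic (ampH Q π) (ampH Q lam) (ampW Q W) (ampO j Ω)) :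
    LegN μ w ι₀ a a' (ampH Q π) (ampH Q lam) (ampW Q W) (ampO j Ω)
      (fun S => H333.Amp.amp (Q := Q) (m S)) q Z (fun x => ampC Q (Ec x))
      (fun x => ampC Q (F x)) where
  adm := h.adm
  hw := h.hw
  pic := hp
  ms := h.ms.amp j
  uc := uc_ampG h.uc j
  ph := h.ph
  zm := h.zm
  ud := h.ud
  orb hj := by
    haveI := h.adm.tg
    obtain ⟨ρ, h0, h1, h2⟩ := h.orb hj
    exact ⟨ρ, h0, h1, orb_ampG (h.adm.cι.comp (continuous_unN hj)) h.pic.contP h0.le h2 j⟩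
  orb' hj := by
    haveI := h.adm.tg
    obtain ⟨ρ, h0, h1, h2⟩ := h.orb' hj
    exact ⟨ρ, h0, h1, orb_ampG (h.adm.cι.comp (continuous_ctN.comp (continuous_unN hj)))
      h.pic.contP h0.le h2 j⟩
  size := size_ampG h.size j
  size' := size_ampG h.size' j
  nws := nws_ampN h.ms h.zm h.nws j
  nws' := nws_ampN h.ms h.zm h.nws' j
  e := efam_ampN h.ms h.zm h.e
  f := efam_ampN h.ms h.zm h.f
  nis := h.nis

end amp

end Vale.Agent.P092.SNT
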