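import Vale.Agent.P092.SNT.Flip
import Vale.Agent.P092.H34.X.NFin

/-!
P092, TEAM N, all amplifications (helper157): with the joints of helper34, everything from the
first leg of the concrete picture.
-/

set_option linter.all false

open MeasureTheory

namespace Vale.Agent.P092.SNT

open Vale.Agent.P092.SN
open Vale.Agent.P092.H515.St (LocK)

/-- The core statement for `SL_n(k)`, `n ≥ 3`, from the first leg. -/
theorem coreAllE_of_half {k : Type} [NontriviallyNormedField k] [ProperSpace k]
    [MeasurableSpace k] [BorelSpace k] {μ : Measure k} [μ.IsAddHaarMeasure] (hk : H933.LocK k)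
    (h : ExSlHalfT k μ) {n : ℕ} (hn : 3 ≤ n) :
    CoreAllE (Matrix.SpecialLinearGroup (Fin n) k) := by
  obtain ⟨h1, h2, h3⟩ := H34.XN.joints (μ := μ) hk
  exact coreAllE_sl h1 h2 h3 (exSlT_of_half h) hn

/-- **The final statement over `ℝ`, all amplifications, from the first leg.** -/
theorem finalAllR_of_half (hk : H933.LocK ℝ) (h : ExSlHalfT ℝ volume) : FinalAllR :=
  finalAllR_of fun _ hn => coreAllE_of_half (μ := volume) hk h hn

/-- **The final statement for all local fields and all amplifications, from the first leg.** -/
theorem finalAll_of_half (h : ∀ (k : Type) [NontriviallyNormedField k] [ProperSpace k]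
    [MeasurableSpace k] [BorelSpace k] (μ : Measure k) [μ.IsAddHaarMeasure], H933.LocK k →
    ExSlHalfT k μ) : SN.St.FinalAll := by
  refine finalAll_of fun k _ _ hk n hn => ?_
  letI : MeasurableSpace k := borel k
  haveI : BorelSpace k := ⟨rfl⟩
  exact coreAllE_of_half (μ := (Measure.addHaar : Measure k)) (lk hk)
    (h k (Measure.addHaar : Measure k) (lk hk)) hn

end Vale.Agent.P092.SNT
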